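import Vale.Agent.P057SY.Alt

/-!
Rounding of extra coordinates.
-/

set_option linter.all false

open Matrix Finset
open Vale.Agent.P267.H775 Vale.Agent.P057G Vale.Agent.P057PC Vale.Agent.P057SY

namespace Vale.Agent.P057FI

noncomputable section

/-- a triangular system has a point of bounded position -/
theorem rnd0 {L : Type} [Fintype L] [DecidableEq L] {lv : L → ℕ} {G : Matrix L L ℝ}
    {p : (L → ℤ) → L → ℝ} (hG : G.PosDef) (ho : ∀ l l', lv l ≠ lv l' → G l l' = 0) (hp : Tri lv p)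
    {Y : ℝ} (hY : 2 ≤ Y) (hc : (Fintype.card L : ℝ) ≤ Y) (h : th G⁻¹ 0 ≤ Real.exp Y) :
    ∃ z, qq G (toR z - p z) ≤ Real.exp (4 * Y) := by
  by_contra hn
  have h1 : (Real.exp (-(3 * Y)) • G).PosDef := hG.smul (Real.exp_pos _)
  have h2 : ∀ l l', lv l ≠ lv l' → (Real.exp (-(3 * Y)) • G) l l' = 0 := fun l l' e => by
    simp [ho l l' e]
  have h3 := fine hG (by linarith) h
  have h4 := (abs_le.1 (wid h1 h2 hp)).1
  have h5 := P057SH.tail_le h1 h2 hp (Real.exp Y) (f := fun _ => 1) zero_le_one (by simp)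
    fun z hz => (hn ⟨z, by
      rw [qq_smul_mat, Real.exp_neg, inv_mul_le_iff₀ (Real.exp_pos _), ← Real.exp_add] at hz
      exact hz.trans_eq (by ring_nf)⟩).elim
  simp only [mul_one, one_mul, ms_zero h1] at h5
  have h6 := Real.quadratic_le_exp_of_nonneg (by linarith : 0 ≤ Y)
  have h7 : Real.exp (-2) ≤ 1 / 3 := by
    rw [Real.exp_neg, ← one_div]
    exact one_div_le_one_div_of_le (by norm_num) (by linarith [Real.add_one_le_exp (2 : ℝ)])
  have h8 : Real.exp (Fintype.card L - Real.exp Y) ≤ 1 / 3 :=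
    (Real.exp_le_exp.2 (by nlinarith)).trans h7
  have h9 : Real.exp (-Real.exp Y) ≤ 1 / 3 := (Real.exp_le_exp.2 (by nlinarith)).trans h7
  have h10 := mul_le_mul h8 h3 (th_nonneg _ _) (by norm_num)
  have h11 : ms (Real.exp (-(3 * Y)) • G) p ≤ _ := (le_abs_self _).trans h5
  linarith

theorem rnd : RND := by
  intro V ι K _ _ _ _ _ S X τ Y hX hs hY
  refine ⟨fun z => Classical.epsilon fun u => qq X.G (toR u - X.g (jn z u)) ≤ Real.exp (4 * Y),
    fun z => Classical.epsilon_spec (rnd0 (lv := X.tr) (p := fun u => X.g (jn z u)) hX.pd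
      (fun l l' e => by_contra fun h0 => e (hX.ort l l' h0).2) (fun e u u' hu =>
        hX.loc e _ _ (fun _ _ => rfl) fun e' _ h2 => congrArg Int.cast (hu e' h2)) hY hs.card hs.cx),
    fun z z' h => ?_⟩
  have : ∀ u, X.g (jn z u) = X.g (jn z' u) := fun u => funext fun e =>
    hX.loc e _ _ (fun i hi => congrArg Int.cast (h i e hi)) fun _ _ _ => rfl
  simp only [this]

end

end Vale.Agent.P057FI
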