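import Vale.Agent.P057CO.Iso
import Vale.Agent.P057GA.Ins
import Vale.Agent.P057SY.Alt

/-!
Splitting a bounded form in one direction; transfer of extra coordinates to more vertices.
-/

set_option linter.all false

open Matrix Finset
open Vale.Agent.P267.H775 Vale.Agent.P057G Vale.Agent.P057MA Vale.Agent.P057SY
open Vale.Agent.P057GA (lft)

namespace Vale.Agent.P057FI

noncomputable section

variable {V V' ι ι' K : Type} [DecidableEq V] [DecidableEq V'] [Fintype ι] [DecidableEq ι]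
  [Fintype ι'] [DecidableEq ι'] [Fintype K] [DecidableEq K] {S : MS V ι} {S' : MS V' ι'}
  {f : (ι → ℝ) → ℝ} {t : V}

theorem sts_one (t : V) : S.sts {t} = S.st t := by ext i; simp [MS.mem_sts, MS.mem_st]

theorem ln2_kill (h : S.Ok) (hc : S.Cen) (t : V) (x : ι → ℝ) :
    ln2 S univ (mix (S.st t) 0 x) = ln2 S (univ \ S.st t) x := by
  refine congrArg (qq S.G) (funext fun i => ?_)
  rw [msk_pos _ (mem_univ i)]
  by_cases k : i ∈ S.st t
  · rw [msk_neg _ fun e => (Finset.mem_sdiff.1 e).2 k, Pi.sub_apply, mix_pos _ _ k,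
      hc.zero t i (S.mem_st.1 k), Pi.zero_apply, sub_zero]
  · rw [msk_pos _ (Finset.mem_sdiff.2 ⟨mem_univ i, k⟩)]
    exact pos_indep h k 0 x

theorem ln2_out {X : Xt V ι K} (ht : ∀ k, t ∉ X.fc k) (z : ι ⊕ K → ℝ) :
    ln2 (xt S X) (univ \ (xt S X).st t) z =
      ln2 S (univ \ S.st t) (z ∘ Sum.inl) + qq X.G (z ∘ Sum.inr - X.g z) := by
  refine (P057PC.qq_blocks _ _ _).trans (congrArg₂ (· + ·) (congrArg _ (funext fun i => ?_))
    (congrArg _ (funext fun k => msk_pos _ (Finset.mem_sdiff.2 ⟨mem_univ _, fun e =>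
      ht k ((MS.mem_st _).1 e)⟩))))
  simp only [Function.comp, msk, Finset.mem_sdiff, mem_univ, true_and, MS.mem_st]
  rfl

theorem qq_in {X : Xt V ι K} (ht : ∀ k, t ∉ X.fc k) (u : ι ⊕ K → ℝ) :
    qq (xt S X).G (msk ((xt S X).st t) u) = qq S.G (msk (S.st t) (u ∘ Sum.inl)) := by
  refine (P057PC.qq_blocks _ _ _).trans ?_
  rw [show msk ((xt S X).st t) u ∘ Sum.inr = 0 from funext fun k =>
    msk_neg _ fun e => ht k ((MS.mem_st _).1 e), show qq X.G 0 = 0 by simp [qq], add_zero]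
  refine congrArg _ (funext fun i => ?_)
  simp only [Function.comp, msk, MS.mem_st]
  rfl

variable [Fintype V]

theorem kz_compl (A : Finset V) (x : ι → ℝ) (i : ι) :
    S.kz (univ \ A) x i = if S.fc i ⊆ A then x i else 0 := by
  have : i ∈ S.sts (univ \ A) ↔ ¬ S.fc i ⊆ A := by
    simp only [MS.mem_sts, Finset.mem_sdiff, mem_univ, true_and, not_subset]
    exact exists_congr fun _ => and_comm
  rw [MS.kz, mix, if_congr this rfl rfl, ite_not]
  rfl

theorem qq_dil (h : S.Ok) {lam : ℝ} (hl : 1 ≤ lam) {n : ℕ} (hn : Fintype.card V ≤ n) (v : ι → ℝ) :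
    qq (dil S univ lam).G v ≤ (lam ^ n) ^ 2 * qq S.G v := by
  rw [← qq_smul]
  exact (P057T1.qq_gsc _ _ _).trans_le (qq_scale_le (b := fun _ => lam ^ n) h.pd.posSemidef
    (fun i j e => by rw [(h.orth i j e).1]) (fun _ _ _ => rfl) (fun i => pow_le_pow_left₀
      (by positivity) (pow_le_pow_right₀ hl ((card_le_univ _).trans hn)) 2) v)

theorem tiny (h : S.Ok) (hc : S.Cen) {B R : ℝ} (hf : Nle S univ f B) (hl : ∀ v, Lin (S.st v) f)
    (t : V) (hR : 1 ≤ R) {z : ι → ℝ} (hz : ln2 S univ z ≤ R ^ 2) :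
    f z ^ 2 ≤ B ^ 2 * (4 * R ^ 2) ^ Fintype.card V * ln2 S (S.st t) z := by
  have R0 : 0 < R := by linarith
  have h0 := inv_le_one_of_one_le₀ hR
  have h1 := P057CO.ln2_small h hc (t := R⁻¹) (by positivity) h0 z
  have h2 := hf.part h hc (L := univ) (fun v _ => hl v) (fun i _ => by
    rw [inter_univ]; exact hc.ne i) (mem_univ t)
    (h1.trans (by rw [inv_pow, inv_mul_le_iff₀ (by positivity)]; linarith))
  have h3 := ln2_scl (q := S.st t) h hc univ (t := R⁻¹) (s := 1) (fun i _ =>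
    pow_le_pow_left₀ (by positivity) (pow_le_one₀ (by positivity) h0) 2) z
  rw [lin_scl fun v _ => hl v, univ_inter, card_univ, mul_pow, inv_pow, inv_pow,
    inv_mul_le_iff₀ (by positivity)] at h2
  rw [one_pow, one_mul] at h3
  refine h2.trans ((mul_le_mul_of_nonneg_left (mul_le_mul_of_nonneg_left h3 (by positivity))
    (by positivity)).trans (le_of_eq ?_))
  ring

/-- a bounded form changes little when the positions over `t` are replaced by close ones -/
theorem split (h : S.Ok) (hc : S.Cen) {B R δ : ℝ} (hf : Nle S univ f B) (hl : ∀ v, Lin (S.st v) f)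
    (t : V) (hR : 1 ≤ R) {x κ : ι → ℝ} (h1 : qq S.G (msk (S.st t) (pos S x - κ)) ≤ δ)
    (h2 : ln2 S (univ \ S.st t) x + δ ≤ R ^ 2) :
    (f x - f (lft S {t} x κ)) ^ 2 ≤ B ^ 2 * (4 * R ^ 2) ^ Fintype.card V * δ := by
  have h3 := (P057GA.fm_lft (A := {t}) h hc (cls_univ S) x).fm
    (f := f) ⟨on_univ f, fun v _ => hl v⟩
  have h4 := (h3.lin t (mem_singleton_self t) 0).map_add (pos S x - κ) κ
  have h5 : ∀ u, f (lft S {t} x (mix (S.st t) u 0)) = f (lft S {t} x u) := fun u =>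
    h3.on _ _ fun i hi => mix_pos _ _ ((sts_one t).subset (mem_inter.1 hi).2)
  have h6 := P057GA.ln2_lft (A := {t}) h x (pos S x - κ) (sts_one t).superset
  simp only [h5, sub_add_cancel, P057GA.lft_pos h] at h4
  rw [h4, add_sub_cancel_right]
  refine (tiny h hc hf hl t hR (le_trans ?_ h2)).trans
    (mul_le_mul_of_nonneg_left (h6.trans_le h1) (by positivity))
  rw [ln2_split h (h.sat_st t), univ_inter, add_comm]
  refine add_le_add (le_of_eq (congrArg (qq S.G) (msk_congr fun i hi => ?_))) (h6.trans_le h1)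
  exact (congrFun (pos_lift h _) i).trans
    (mix_neg _ _ fun e => (Finset.mem_sdiff.1 hi).2 ((sts_one t).subset e))

omit [Fintype V]

variable {j : V' ↪ V} {e : ι' → ι} {g : (ι' → ℝ) → ℝ}

theorem mix_tr (he : ∀ i, S.fc (e i) = (S'.fc i).map j) (v : V') (x y : ι → ℝ) :
    mix (S.st (j v)) x y ∘ e = mix (S'.st v) (x ∘ e) (y ∘ e) := by
  funext i
  simp only [Function.comp, mix, MS.mem_st, he, mem_map']

theorem aff_tr (he : ∀ i, S.fc (e i) = (S'.fc i).map j) (h : ∀ v, Aff (S'.st v) g) (v : V) :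
    Aff (S.st v) fun x => g (x ∘ e) := by
  by_cases k : ∃ w, j w = v
  · obtain ⟨w, rfl⟩ := k
    exact aff_map ⟨fun _ _ => rfl, fun _ _ => rfl⟩ (mix_tr he w) (h w)
  · refine aff_of_indep fun x y => congrArg g (funext fun i => mix_neg _ _ fun c => ?_)
    obtain ⟨w, -, hw⟩ := mem_map.1 (he i ▸ S.mem_st.1 c)
    exact k ⟨w, hw⟩

theorem fm_tr (he : ∀ i, S.fc (e i) = (S'.fc i).map j) {A : Finset V'} (h : Fm S' (fce S' A) A g) :
    Fm S (fce S (A.map j)) (A.map j) fun x => g (x ∘ e) := by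
  refine ⟨fun x x' k => h.on _ _ fun i hi => k _ (mem_fce.2 ?_), fun v hv => ?_⟩
  · rw [he]; exact map_subset_map.2 (mem_fce.1 hi)
  · obtain ⟨w, hw, rfl⟩ := mem_map.1 hv
    exact lin_map ⟨fun _ _ => rfl, fun _ _ => rfl⟩ (mix_tr he w) (h.lin w hw)

/-- extra coordinates read over a larger system -/
abbrev xup (j : V' ↪ V) (e : ι' → ι) (X : Xt V' ι' K) : Xt V ι K :=
  ⟨fun k => (X.fc k).map j, X.tr, X.G, fun x => X.g (x ∘ Sum.map e id)⟩

theorem fc_xup (he : ∀ i, S.fc (e i) = (S'.fc i).map j) (X : Xt V' ι' K) (i : ι' ⊕ K) :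
    (xt S (xup j e X)).fc (Sum.map e id i) = ((xt S' X).fc i).map j := by
  cases i
  exacts [he _, rfl]

theorem ok_xup (he : ∀ i, S.fc (e i) = (S'.fc i).map j) {X : Xt V' ι' K} (h : X.Ok S') :
    (xup j e X).Ok S :=
  ⟨fun k => (h.ne k).map, h.pd, fun k k' c => ⟨congrArg (Finset.map j) (h.ort k k' c).1,
    (h.ort k k' c).2⟩,
    fun k x x' h1 h2 => h.loc k _ _ (fun i hi => h1 _ (he i ▸ map_subset_map.2 hi))
      fun k' a b => h2 k' (map_subset_map.2 a) b,
    fun v k => aff_tr (fc_xup he X) (fun w => h.aff w k) v⟩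

end

end Vale.Agent.P057FI
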