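import Vale.Agent.P057PU.Pull
import Vale.Agent.P057SY.Alt
import Vale.Agent.P057TE.Cert
import Vale.Agent.P057SH.Mass

/-!
Positions on symbol cubes after a localisation.
-/

set_option linter.all false

open Matrix Finset MvPolynomial
open Vale.Agent.P267.H775 Vale.Agent.P057G Vale.Agent.P057PC Vale.Agent.P057TP Vale.Agent.P057SY
open Vale.Agent.P057PL Vale.Agent.P057TE Vale.Agent.P057PU

namespace Vale.Agent.P057FI

noncomputable section

section ren

variable {V : Type} [Fintype V] [DecidableEq V] {T T' : Tow} {m : ℕ}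
  {ε : {a // T.lv a < m} ↪ T'.ι} (hε : ∀ a, T'.lv (ε a) = T.lv a)

/-- a symbol label with a renamed coordinate -/
def es (k : SA T V m) : SA T' V m :=
  ⟨(ε ⟨k.cd, k.2.1⟩, k.fc), (hε ⟨k.cd, k.2.1⟩).trans_lt k.2.1,
    k.2.2.1.trans (hε ⟨k.cd, k.2.1⟩).symm, trivial⟩

theorem pt_es (y : SA T' V m → ℝ) (a : {a // T.lv a < m}) :
    (fr SL.cd SL.fc 0).pt y (ε a) = (fr SL.cd SL.fc 0).pt (y ∘ es hε) a.1 := by
  refine (Fintype.sum_of_injective (es hε) (fun k k' e => Subtype.ext (Prod.ext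
    (congrArg Subtype.val (ε.injective (congrArg SL.cd e))) (congrArg (SL.fc (T := T')) e))) _ _
    (fun k hk => if_neg fun e => hk ⟨⟨(a.1, k.fc), a.2, k.2.2.1.trans
      ((congrArg T'.lv e).trans (hε a)), trivial⟩, Subtype.ext (Prod.ext e.symm rfl)⟩) fun k => ?_).symm
  exact @if_congr _ _ _ (_) (_) _ _ _ _ ⟨fun e => congrArg ε (Subtype.ext e),
    fun e => congrArg Subtype.val (ε.injective e)⟩ rfl rfl

theorem ez_pt (y : SA T V m → ℝ) :
    ez (fun b => T.lv b < m) (fun a => (fr SL.cd SL.fc 0).pt y a.1) = (fr SL.cd SL.fc 0).pt y := by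
  funext b
  unfold ez
  split_ifs with h
  · rfl
  · exact (sum_eq_zero fun k _ => if_neg fun e : k.cd = b => h (e ▸ k.2.1)).symm

theorem cq_es (Q : MvPolynomial T.ι ℝ) (A : Finset V) (y : SA T' V m → ℝ) :
    cq (rename ε (aeval (ez (fun b => T.lv b < m) X) Q)) A y = cq Q A (y ∘ es hε) := by
  rw [cq, cq, aeval_rename, ← ez_pt (y ∘ es hε), comp_aeval_apply]
  congr 4
  funext b
  unfold ez
  split_ifs
  · rw [aeval_X]; exact pt_es hε y _
  · exact map_zero _

theorem pol_dla {φ : T.ι → MvPolynomial T'.ι ℤ} {d : ℕ}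
    (h : ∀ a, T.lv a < m → φ a = rename ε (dla T m d a)) (x : SA T' V m → ℝ) :
    pol φ x = P057MA.scl (S0 T V m) univ d (x ∘ es hε) := by
  funext k
  have h1 := ((fr_sl (D := fun _ : Finset V => True) fun _ _ _ _ => trivial).ok 0).coeff_pt x
    (es hε k)
  rw [pol_eq, h k.cd k.2.1, dla, ez, dif_pos (show T.lv k.cd < m from k.2.1), P057MA.scl, inter_univ, cq]
  rw [map_mul, rename_C, rename_X, map_mul, map_C, map_X, map_mul, aeval_C, aeval_X,
    ← Algebra.smul_def, AddMonoidAlgebra.coeff_smul, Finsupp.smul_apply, smul_eq_mul, eq_intCast,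
    Int.cast_pow, Int.cast_natCast]
  exact congrArg₂ (· * ·) (congrArg _ k.2.2.1.symm) h1

theorem qq_es {Λ : ℝ} (hG : T'.G.PosDef)
    (h : ∀ x : T'.ι → ℝ, Λ * qq (bk T.G fun a => T.lv a < m) (x ∘ ε) ≤ qq T'.G x)
    (y : SA T' V m → ℝ) : Λ * qq (S0 T V m).G (y ∘ es hε) ≤ qq (S0 T' V m).G y := by
  classical
  have h1 := Cf.qq_Gam T.tw (fr SL.cd SL.fc 0) (y ∘ es hε)
  have h2 := Cf.qq_Gam T'.tw (fr SL.cd SL.fc 0) y
  rw [show qq (S0 T V m).G _ = 25 * _ from qq_smul_mat _ _ _,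
    show qq (S0 T' V m).G _ = 25 * _ from qq_smul_mat _ _ _, h1, h2, mul_left_comm, mul_sum]
  refine mul_le_mul_of_nonneg_left ((sum_le_sum fun μ _ => le_trans (le_of_eq ?_) (h _)).trans
    (sum_le_sum_of_subset_of_nonneg (fun μ hμ => ?_) fun μ _ _ => qq_nonneg hG.posSemidef _))
    (by norm_num)
  · rw [← qq_ez, ← ez_pt (y ∘ es hε)]
    congr 2
    funext b
    unfold ez
    split_ifs
    · exact congrArg (·.coeff μ) (pt_es hε y _).symm
    · rfl
  · obtain ⟨k, -, rfl⟩ := mem_image.1 hμ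
    exact mem_image_of_mem _ (mem_univ (es hε k))

end ren

variable {C W : Type} [Fintype W] [DecidableEq W] {T : Tow} {cl : W → C} {m : ℕ} {F : Finset W}
  (hF : Set.InjOn cl F)

/-- the label of a face of the symbol cube -/
def lb (k : SA T (VF F) m) : Lb T cl Unit m := (exists_lb hF k).choose

theorem lb_cd (k : SA T (VF F) m) : (lb hF k).cd = k.cd := (exists_lb hF k).choose_spec.1

theorem lb_fo (k : SA T (VF F) m) : fo (lb hF k) = up k.fc := (exists_lb hF k).choose_spec.2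

theorem lb_pure (k : SA T (VF F) m) : (lb hF k).Pure :=
  (pure_iff _).2 (by rw [lb_fo, lb_cd]; exact (card_map _).trans k.2.2.1)

theorem lb_bs (k : SA T (VF F) m) : (lb hF k).bs ≠ none ↔ tF F ∈ k.fc := by
  rw [← none_fo, lb_fo]; exact P057SY.mem_up (v := tF F)

theorem pu_lb (x : Lb T cl Unit m → ℝ) {l : Lb T cl Unit m} (hl : l.Pure) (h : fo l ⊆ fp F) :
    pu cl F (x ∘ lb hF) l = x l := by
  obtain ⟨k, h1, h2⟩ := exists_sa hl h
  rw [pu_eq _ h1 h2, ← lb_ext ((lb_cd hF k).trans h1) ((lb_fo hF k).trans h2)]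
  rfl

theorem cf_pu {Ψ : Fam ℝ T.ι T.ι W Unit} {R : MvPolynomial T.ι ℝ} (k : SA T (VF F) m)
    (h : ∀ o, Ψ.fn o k.cd = map MvPolynomial.C R) (y : SA T (VF F) m → ℝ) :
    cf Ψ (pu cl F y) (lb hF k) = cq R k.fc y := by
  rw [cf, ex_eq (lb_pure hF k), lb_cd, h, ← cq_tr (j := Subtype.val) Subtype.val_injective,
    ← funext (lift_pu hF y), show Multiset.map Subtype.val k.fc.val = (fo (lb hF k)).val from
      congrArg Finset.val (lb_fo hF k).symm, ← sub_eq_zero, ← coeff_sub]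
  cases e : (lb hF k).bs with
  | some a => rw [sub_self, coeff_zero]
  | none =>
    refine coeff_of_dvd (o := none) (n := 1) (dvd_eval (fun b => ?_) _) (by
      simp [count_val, none_fo, e])
    rw [pow_one, lift, lift, ← sum_sub_distrib]
    refine dvd_sum fun j _ => ?_
    cases g : j.bs with
    | none => simp
    | some a =>
      rw [if_neg (by simp), zero_sub, dvd_neg]
      by_cases c : j.cd = b
      · rw [if_pos ⟨c, Or.inr rfl⟩]
        exact (c ▸ mon_dvd j ((none_fo j).2 (by simp [g]))).mul_left _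
      · rw [if_neg fun d => c d.1]
        exact dvd_zero _

theorem k0_lb (x : Lb T cl Unit m → ℝ) :
    k0 x ∘ lb hF = mix ((S0 T (VF F) m).st (tF F)) 0 (x ∘ lb hF) := by
  funext k
  simp only [Function.comp, k0, mix, MS.mem_st, Pi.zero_apply]
  exact (if_congr (not_not.symm.trans (lb_bs hF k).not) rfl rfl).trans (ite_not _ _ _)

/-- the centre of a symbol label -/
theorem pm_lb {Ψ : Fam ℝ T.ι T.ι W Unit} (hΨ : Ψ.Ok T.lv T.lv) {R : MvPolynomial T.ι ℝ}
    (k : SA T (VF F) m) (h : ∀ o, Ψ.fn o k.cd = map MvPolynomial.C R) (x : Lb T cl Unit m → ℝ) :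
    pm Ψ x (lb hF k) = cq R k.fc (x ∘ lb hF) := by
  classical
  have h1 : pm Ψ x (lb hF k) = pm Ψ (pu cl F (x ∘ lb hF)) (lb hF k) := by
    rw [pm_loc Ψ (x' := fun l => if fo l ⊆ fp F then x l else 0) fun l hl =>
      (if_pos (hl.trans ((lb_fo hF k).subset.trans (P057PU.up_sub _)))).symm]
    refine congrFun (pm_pure hΨ fun l hl => ?_) _
    split_ifs with c
    exacts [(pu_lb hF x hl c).symm, (pu_out _ c).symm]
  rw [h1, pm_cf hΨ, if_pos (lb_pure hF k), cf_pu hF k h]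
  split_ifs with c
  · rfl
  · rw [cf_pure Ψ (x' := pu cl F (k0 x ∘ lb hF)) (fun l hl => ?_) (lb_pure hF k), cf_pu hF k h,
      k0_lb, (lin_cq R ((lb_bs hF k).1 c)).zero, sub_zero]
    by_cases g : fo l ⊆ fp F
    · rw [pu_lb hF _ hl g, k0, k0, pu_lb hF _ hl g]
    · rw [pu_out _ g, k0, pu_out _ g, ite_self]

theorem qq_lb {s : ℕ} {N : ℝ} (hT : T.Ok s N) (v : Lb T cl Unit m → ℝ) :
    qq (S0 T (VF F) m).G (v ∘ lb hF) ≤ 25 * qq (Gam T cl Unit m) v := by
  have hi : Function.Injective (lb (T := T) (m := m) hF) := fun k k' e => Subtype.ext (Prod.ext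
    ((lb_cd hF k).symm.trans ((congrArg Lb.cd e).trans (lb_cd hF k')))
    (map_injective _ ((lb_fo hF k).symm.trans ((congrArg fo e).trans (lb_fo hF k')))))
  have e : ∀ l l' : Lb T cl Unit m, l.fc = l'.fc ∧ l.bs = l'.bs ↔ fo l = fo l' := fun l l' =>
    ⟨fun h => by rw [fo, fo, h.1, h.2], fun h => ⟨Subset.antisymm (fo_sub.1 h.subset).1
      (fo_sub.1 h.superset).1, (fo_sub.1 h.subset).2.elim (fun a => (fo_sub.1 h.superset).2.elim
        (fun b => a.trans b.symm) Eq.symm) id⟩⟩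
  have h1 := P057MA.qq_msk_image (q := univ) hi (G := (fr SL.cd SL.fc 0).Gam T.tw)
    (G' := Gam T cl Unit m) (fun k _ k' _ => by
      rw [Gam_fr, Gam, of_apply, lb_cd, lb_cd]
      refine @if_congr _ _ _ (_) (_) _ _ _ _ ((e _ _).trans ?_) rfl rfl
      rw [lb_fo, lb_fo]; exact map_inj) v
  have h2 := P057MA.qq_msk_le (P057GH.pd_Gam hT.pd cl Unit m) (q := univ)
    (q' := univ.image (lb hF)) (fun l l' hl hl' => by_contra fun c => hl' ?_) (subset_univ _) v
  · rw [h1, show ∀ u, msk univ u = u from fun u => funext fun i => msk_pos _ (mem_univ i),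
      show ∀ u, msk univ u = u from fun u => funext fun i => msk_pos _ (mem_univ i)] at h2
    exact (qq_smul_mat _ _ _).trans_le (by linarith)
  · obtain ⟨k, -, rfl⟩ := mem_image.1 hl
    have h3 : fo (lb hF k) = fo l' := (e _ _).1 (by_contra fun g => c (if_neg g))
    have h4 : T.lv (lb hF k).cd = T.lv l'.cd := by_contra fun g => c (P057SH.gam_blk hT _ _ g)
    obtain ⟨j, h5, h6⟩ := exists_sa (F := F) ((pure_iff l').2 (by
      rw [← h3, ← h4]; exact (pure_iff _).1 (lb_pure hF k)))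
      (h3 ▸ (lb_fo hF k).subset.trans (P057PU.up_sub _))
    exact mem_image.2 ⟨j, mem_univ _, lb_ext ((lb_cd hF j).trans h5) ((lb_fo hF j).trans h6)⟩

end

end Vale.Agent.P057FI
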