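import Vale.Agent.P057FI.Plan
import Vale.Agent.P057FI.Sym
import Vale.Agent.P057FI.Gen

/-!
The contribution of one top face.
-/

set_option linter.all false

open Matrix Finset
open Vale.Agent.P267.H775 Vale.Agent.P057G Vale.Agent.P057PC Vale.Agent.P057TP Vale.Agent.P057SY
open Vale.Agent.P057MA (IntV Fm fce ln2 dil scl pos)
open Vale.Agent.P057PL Vale.Agent.P057TE
open Vale.Agent.P057PU (cq p_eq alt_congr pu_out)
open Vale.Agent.P057GA (lft)

namespace Vale.Agent.P057FI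

noncomputable section

variable {C W E K K' A : Type} [Fintype W] [DecidableEq W] [Fintype E] [DecidableEq E] [Fintype K]
  [DecidableEq K] [Fintype K'] [DecidableEq K'] {T T' : Tow} {cl : W → C} {m s : ℕ} {N : ℝ}
  {F : Finset W}

theorem Fc.ext {Z : Sys T W Unit} {X : Xt (Option W) (Lb T cl Unit m) E}
    {φ : A → (Lb T cl Unit m ⊕ E → ℝ) → ℝ} {r Q B η : ℝ} {X₂ : Xt (Option W) (Lb T cl Unit m) K}
    {M : (Lb T cl Unit m ⊕ K → ℝ) → E → ℝ} {Γ : A → (Lb T cl Unit m ⊕ K → ℝ) → ℝ}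
    (h : Fc Z X φ F r Q B η X₂ M Γ) {X' : Xt (Option W) (Lb T cl Unit m) K'} {e : K → K'}
    (h1 : ∀ j, X'.fc (e j) = X₂.fc j) (h2 : ∀ x j, X'.g x (e j) = X₂.g (x ∘ Sum.map id e) j)
    (h3 : ∀ v, qq X₂.G (v ∘ e) ≤ qq X'.G v) : Fc Z X φ F r Q B η X'
      (fun y => M (y ∘ Sum.map id e)) fun a y => Γ a (y ∘ Sum.map id e) := by
  have e1 : ∀ z (w : K' → ℤ), jn z w ∘ Sum.map id e = jn (ι := Lb T cl Unit m) z (w ∘ e) :=
    fun z w => funext fun i => by cases i <;> rfl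
  have e2 : ∀ z w, Ps X' z w Q → Ps X₂ z (w ∘ e) Q := fun z w k =>
    le_trans (le_of_eq (congrArg _ (funext fun j => by
      simp only [Function.comp, Pi.sub_apply, h2, e1]; rfl))) ((h3 _).trans k)
  have e3 : P057CO.Fmp (xt (sk T cl m) X') (xt (sk T cl m) X₂) fun y => y ∘ Sum.map id e :=
    fun i => by
      have := (P057MA.mor_id (xt (sk T cl m) X')).fm (Sum.map id e i)
      rwa [show (xt (sk T cl m) X').fc (Sum.map id e i) = (xt (sk T cl m) X₂).fc i by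
        cases i; exacts [rfl, h1 _]] at this
  refine ⟨fun i hi => ⟨fun y => (h.fm i hi).1 (y ∘ Sum.map id e), e3.fm (h.fm i hi).2⟩,
    fun a y y' a1 a2 => h.wo a _ _ a1 fun k => a2 (e k), fun z w a1 a2 => ?_, fun z w a1 a2 => ?_⟩
  · simpa only [e1] using h.pos z _ a1 (e2 z w a2)
  · simpa only [e1] using h.nr z _ a1 (e2 z w a2)

/-- the coordinates of the old tower are centred and narrowed in the new one -/
structure Loc (m d : ℕ) (Λ : ℝ) (Z : Sys T' W Unit) (ψ : T.ι → MvPolynomial T'.ι ℤ)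
    (ε : {a // T.lv a < m} ↪ T'.ι) : Prop where
  lv : ∀ a, T'.lv (ε a) = T.lv a
  fn : ∀ a o, Z.fam.fn o (ε a) = MvPolynomial.rename ε (MvPolynomial.map MvPolynomial.C
    (MvPolynomial.aeval (ez (fun b => T.lv b < m) MvPolynomial.X) (T.q a)))
  gr : ∀ x : T'.ι → ℝ, Λ * qq (bk T.G fun a => T.lv a < m) (x ∘ ε) ≤ qq T'.G x
  tp : ∀ a, T.lv a < m → ψ a = MvPolynomial.rename ε (dla T m d a)

variable {d : ℕ} {Λ : ℝ} {Z : Sys T' W Unit} {ψ : T.ι → MvPolynomial T'.ι ℤ}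
  {ε : {a // T.lv a < m} ↪ T'.ι} (h : Loc m d Λ Z ψ ε) (hF : Set.InjOn cl F)

/-- the labels of the symbol cube -/
def Loc.e : SA T (VF F) m → Lb T' cl Unit m := lb hF ∘ es h.lv

theorem Loc.fo_e (k : SA T (VF F) m) : fo (h.e hF k) = up k.fc := lb_fo hF _

theorem Loc.p_e (hZ : Z.Ok) (x : Lb T' cl Unit m → ℝ) (k : SA T (VF F) m) :
    (S0 T (VF F) m).p (x ∘ h.e hF) k = pm Z.fam x (h.e hF k) := by
  rw [p_eq, Loc.e, ← Function.comp_assoc, ← cq_es h.lv]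
  exact (pm_lb hF hZ.fam (es h.lv k) (fun o => (h.fn ⟨k.cd, k.2.1⟩ o).trans
    (MvPolynomial.map_rename _ _ _).symm) x).symm

theorem Loc.qq_e (hT : T.Ok s N) (hT' : T'.Ok s N) (hs : F.card ≤ s) {lam r δ : ℝ} (hl : 1 ≤ lam)
    (hΛ : 0 < Λ) (hδ : 25 * (lam ^ (s + 1)) ^ 2 * r ≤ Λ * δ) {v : Lb T' cl Unit m → ℝ}
    (hv : qq (Gam T' cl Unit m) v ≤ r) {q : Finset (SA T (VF F) m)} (hq : Sat (S0 T (VF F) m).G q)
    {u : SA T (VF F) m → ℝ} (hu : ∀ k ∈ q, u k = v (h.e hF k)) :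
    qq (dil (S0 T (VF F) m) univ lam).G (msk q u) ≤ δ := by
  have h0 : (S0 T (VF F) m).Ok := sym_ok hT (fun _ _ _ _ => trivial) (by norm_num)
  have h1 := qq_dil h0 hl (n := s + 1) (by rw [Fintype.card_coe, card_fp]; omega) (msk q u)
  have h2 := P057MA.qq_msk_le h0.pd hq (subset_univ q) (v ∘ h.e hF)
  have h3 := (qq_es h.lv hT'.pd h.gr (v ∘ lb hF)).trans (qq_lb hF hT' v)
  rw [← msk_congr (w := v ∘ h.e hF) hu, show msk univ (v ∘ h.e hF) = (v ∘ lb hF) ∘ es h.lv from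
    funext fun i => msk_pos _ (mem_univ i)] at h2
  refine le_of_mul_le_mul_left ((mul_le_mul_of_nonneg_left h1 hΛ.le).trans (le_trans ?_ hδ)) hΛ
  rw [mul_left_comm, mul_comm 25, mul_assoc]
  exact mul_le_mul_of_nonneg_left (((mul_le_mul_of_nonneg_left h2 hΛ.le).trans h3).trans
    (by linarith)) (by positivity)

include h hF in
theorem face (hT : T.Ok s N) (hT' : T'.Ok s N) (hZ : Z.Ok)
    {σ : (Lb T' cl Unit m → ℝ) → Lb T cl Unit m → ℝ} (hσ : Lm cl m ψ σ)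
    {X : Xt (Option W) (Lb T cl Unit m) E} {τ : ℕ} {Y lam r Q R δ B η : ℝ} (hX : X.Ok (sk T cl m))
    (hz : X.Sz τ Y) (h0 : ∀ e, none ∉ X.fc e) {φ : A → (Lb T cl Unit m ⊕ E → ℝ) → ℝ}
    (hφ : ∀ a, Dg X (F.card + 1) (φ a)) (hs : F.card ≤ s)
    (hR : Res (S0 T (VF F) m) (X.sy F) (fun a => sf X F (φ a)) (tF F) τ d lam Y) (hl : 1 ≤ lam)
    (hΛ : 0 < Λ) (hδ : 25 * (lam ^ (s + 1)) ^ 2 * r ≤ Λ * δ) (δ0 : 0 ≤ δ) (R1 : 1 ≤ R)
    (hQ : δ + Q + δ ≤ R ^ 2) (hB : (R ^ (s + 1)) ^ 2 ≤ B) (η0 : 0 ≤ η)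
    (hη : Real.exp Y ^ 2 * (4 * R ^ 2) ^ (s + 1) * δ ≤ η ^ 2) :
    ∃ (K : Type) (_ : Fintype K) (_ : DecidableEq K) (X₂ : Xt (Option W) (Lb T' cl Unit m) K)
      (M : (Lb T' cl Unit m ⊕ K → ℝ) → E → ℝ) (Γ : A → (Lb T' cl Unit m ⊕ K → ℝ) → ℝ),
      (X₂.Ok (sk T' cl m) ∧ X₂.Sz τ Y) ∧ (∀ k, none ∉ X₂.fc k) ∧
        Fc Z (X.pull σ) (fun a x => φ a (sg σ x)) F r Q B η X₂ M Γ := by
  obtain ⟨K, _, _, X', P, r1, r2, r3, r4, r5, r6, r7⟩ := hR
  choose I i1 i2 i3 using r7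
  obtain ⟨y1, y2, -, y4, y5⟩ := syf s N T C W E cl m τ X Y F hT hX hz h0
  have s0 : (S0 T (VF F) m).Ok := sym_ok hT (fun _ _ _ _ => trivial) (by norm_num)
  have s1 := P057CO.ok_xt (P057MA.ok_dil s0 univ hl) r1
  have he : ∀ k, (sk T' cl m).fc (h.e hF k) =
      ((dil (S0 T (VF F) m) univ lam).fc k).map (Function.Embedding.subtype _) := h.fo_e hF
  have hV : Fintype.card (VF F) ≤ s + 1 := by rw [Fintype.card_coe, card_fp]; omega
  have b1 : ∀ k, tF F ∉ SL.fc k → (h.e hF k).bs = none := fun k c =>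
    not_not.1 (mt (lb_bs hF (es h.lv k)).1 c)
  have p1 : ∀ (z : Lb T' cl Unit m → ℤ) w, qq (Gam T' cl Unit m) (k0 (Z.ps cl m z)) ≤ r ∨
      qq (Gam T' cl Unit m) (Z.ps cl m z) ≤ r →
      Ps (xup (Function.Embedding.subtype _) (h.e hF) X') z w Q →
      ln2 (xt (dil (S0 T (VF F) m) univ lam) X') (univ \ (xt _ X').st (tF F))
        (jn z w ∘ Sum.map (h.e hF) id) ≤ δ + Q := fun z w a1 a2 => by
    have c1 : ∀ k ∈ univ \ (S0 T (VF F) m).st (tF F), (h.e hF k).bs = none := fun k hk =>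
      b1 k fun c => (Finset.mem_sdiff.1 hk).2 ((MS.mem_st _).2 c)
    have c2 : ∀ k ∈ univ \ (S0 T (VF F) m).st (tF F),
        pos (S0 T (VF F) m) (toR z ∘ h.e hF) k = Z.ps cl m z (h.e hF k) := fun k hk => by
      rw [pos, Pi.sub_apply, h.p_e hF hZ, pm, if_pos (c1 k hk)]; rfl
    have c3 := (s0.sat fun _ _ _ _ _ => mem_univ _).sdiff s0.pd.1 (s0.sat_st (tF F))
    rw [ln2_out r4]
    refine add_le_add (a1.elim (fun a => h.qq_e hF hT hT' hs hl hΛ hδ a c3 fun k hk => ?_)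
      fun a => h.qq_e hF hT hT' hs hl hΛ hδ a c3 c2) a2
    rw [k0, if_pos (c1 k hk)]
    exact c2 k hk
  have p2 : ∀ y : Lb T' cl Unit m ⊕ K → ℝ, sg (pol ψ) (Sum.elim (y ∘ Sum.inl ∘ lb hF)
      (P (y ∘ Sum.map (h.e hF) id) ∘ Sum.inr)) = P (y ∘ Sum.map (h.e hF) id) := fun y => by
    rw [sg, Sum.elim_comp_inl, Sum.elim_comp_inr, pol_dla h.lv h.tp,
      ← Sum.elim_comp_inl_inr (P _), r6]
    rfl
  refine ⟨K, _, _, xup (Function.Embedding.subtype _) (h.e hF) X', fun y e =>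
    if c : X.fc e ⊆ F.image some then P (y ∘ Sum.map (h.e hF) id) (Sum.inr ⟨e, c⟩) else 0,
    fun a y => (fun x => sf X F (φ a) (P x) - I a x) (lft (xt (dil (S0 T (VF F) m) univ lam) X')
      {tF F} (y ∘ Sum.map (h.e hF) id) (Sum.elim (Z.pr cl m (k0 (y ∘ Sum.inl)) ∘ h.e hF) 0)),
    ⟨ok_xup he r1, r3.tr, r3.card, r3.sep, r3.cx⟩, fun k c => r4 k (P057SY.mem_up.1 c),
    fun e c => ?_, fun a y y' a1 a2 => ?_, fun z w a1 a2 => ?_, fun z w a1 a2 a => ?_⟩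
  · have := fm_tr (fc_xup he X') (r5.fm (Sum.inr ⟨e, c⟩))
    rw [show ((xt _ (X.sy F)).fc (Sum.inr ⟨e, c⟩)).map (Function.Embedding.subtype _) = X.fc e from
      subtype_map_of_mem fun v hv => sub_fp F (c hv)] at this
    simp only [dif_pos (show X.fc e ⊆ _ from c)]
    exact ⟨fun y => r5.int _ (y ∘ Sum.map (h.e hF) id), this⟩
  · have : k0 (y ∘ Sum.inl) = k0 (y' ∘ Sum.inl) := funext fun l => if_ctx_congr Iff.rfl (a1 l)
      fun _ => rfl
    rw [this]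
    refine congrArg (fun x => sf X F (φ a) (P x) - I a x) (funext fun i =>
      P057GA.lft_congr s1 (P057MA.cls_univ _) (fun j hj => ?_) (fun _ _ => rfl) (mem_univ i))
    cases j with
    | inl k => exact a1 _ (b1 k fun c => (Finset.mem_sdiff.1 hj).2
        (MS.mem_sts.2 ⟨_, mem_singleton_self _, c⟩))
    | inr k => exact a2 k
  · have c1 := P057CO.mor_large r5 s1 r2 (P057CO.ok_xt s0 y1) y2 R1
      ((ln2_kill s1 r2 _ _).trans_le ((p1 z w (Or.inl a1) a2).trans (by linarith)))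
    rw [P057CO.Fmp.kill r5.fm, ln2_kill (P057CO.ok_xt s0 y1) y2, ln2_out y4] at c1
    refine le_trans (le_of_eq ((congrArg _ (funext fun e => ?_)).trans (qq_ez _ _)))
      (((le_add_of_nonneg_left (P057MA.ln2_nonneg s0 _)).trans c1).trans (le_trans ?_ hB))
    · by_cases c : X.fc e ⊆ F.image some
      · rw [if_pos c, dif_pos c, ez, dif_pos c, Pi.sub_apply]
        refine congrArg₂ (· - ·) rfl (Eq.trans ?_ ((congrFun (congrFun (congrArg Xt.g
          ((hσ.ok E X hX h0).2 F hF)) _) ⟨e, c⟩).trans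
            (congrArg ((X.sy F).g · ⟨e, c⟩) (p2 (jn z w)))))
        refine alt_congr (p := fun i => (xt (sk T' cl m) (X.pull σ)).fc i ⊆ X.fc e)
          (fun y y' k => (hσ.ok E X hX h0).1.loc e _ _ (fun i hi => k (Sum.inl i) hi)
            fun e' a _ => k (Sum.inr e') a) _ ?_
        rintro (l | e') hi
        · exact (pu_lb hF (toR z) (Or.inl (not_not.1 fun g => h0 e (hi ((none_fo l).2 g))))
            (hi.trans (c.trans (sub_fp F)))).symm
        · rfl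
      · rw [if_neg c, ez, dif_neg c]
    · exact pow_le_pow_left₀ (by positivity) (pow_le_pow_right₀ R1 hV) 2
  · obtain ⟨n, hn⟩ := i2 a (Sum.elim z w ∘ Sum.map (h.e hF) id)
    have c1 := split s1 r2 (i3 a) (fun v => by
      simpa only [one_mul, neg_mul, ← sub_eq_add_neg] using P057MA.lin_comb
        (r5.lin (y5 _ _ (hφ a) v)) ((i1 a).lin v (mem_univ v)) 1 (-1)) (tF F) R1
      (x := jn z w ∘ Sum.map (h.e hF) id) (δ := δ)
      (κ := Sum.elim (Z.pr cl m (k0 (toR z)) ∘ h.e hF) 0) (by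
        rw [qq_in r4]
        refine h.qq_e hF hT hT' hs hl hΛ hδ a1 (s0.sat_st _) fun k hk => ?_
        have c2 : (h.e hF k).bs ≠ none := (lb_bs hF (es h.lv k)).2 ((MS.mem_st _).1 hk)
        change _ - (S0 T (VF F) m).p (toR z ∘ h.e hF) k - _ = _
        rw [h.p_e hF hZ, pm, if_neg c2, if_pos (show (h.e hF k).Pure from lb_pure hF _)]
        exact (sub_sub _ _ _).trans (congrArg _ (sub_add_cancel _ _)))
      (by linarith [p1 z w (Or.inr a1) a2])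
    refine ⟨n, le_trans (le_of_eq (congrArg abs ?_)) (abs_le_of_sq_le_sq' (c1.trans (le_trans
      (mul_le_mul_of_nonneg_right (mul_le_mul_of_nonneg_left (pow_le_pow_right₀ (by nlinarith) hV)
        (by positivity)) δ0) hη)) η0 |> abs_le.2)⟩
    refine congrArg₂ (· - ·) (congrArg₂ (· - ·) ?_ ?_) rfl
    · refine Eq.trans ?_ (((hσ.dg E X _ _ (hφ a)).2 F hF le_rfl _).trans
        (congrArg (sf X F (φ a)) (p2 (jn z w))))
      refine alt_congr (p := Sum.elim Lb.Pure fun _ => True) (fun y y' k =>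
        (hσ.dg E X _ _ (hφ a)).1.on y y' (fun l => k (Sum.inl l)) fun e => k (Sum.inr e) trivial) _ ?_
      rintro (l | e) hi <;> rw [kz_compl] <;> split_ifs with c
      · exact (pu_lb hF (toR z) hi c).symm
      · exact (pu_out _ c).symm
      · rfl
      · exact Eq.symm (dif_neg fun g : X.fc e ⊆ _ => c (g.trans (sub_fp F)))
    · exact hn.symm.trans (congrArg (I a) (funext fun i => by cases i <;> rfl))

end

end Vale.Agent.P057FI
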