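import Vale.Agent.P057FI.Face
import Vale.Agent.P057F2.Fin2
import Vale.Agent.P057JO.Join
import Vale.Agent.P057DE.Dem
import Vale.Agent.P057NA.Wrap
import Vale.Agent.P057SI.Syi
import Vale.Agent.P057SH.Core
import Vale.Agent.P057DW.Out

/-!
From resolutions of all top faces to a kernel state of smaller degree.
-/

set_option linter.all false

open Matrix Finset Real
open Vale.Agent.P267.H775 Vale.Agent.P057G Vale.Agent.P057PC Vale.Agent.P057TP Vale.Agent.P057SY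
open Vale.Agent.P057TE Vale.Agent.P057RG

namespace Vale.Agent.P057FI

noncomputable section

theorem pw_le {x k : ℝ} (h1 : 1 ≤ x) (hk : k ≤ x) {i j : ℕ} (h : i < j) : k * x ^ i ≤ x ^ j :=
  (mul_le_mul_of_nonneg_right hk (by positivity)).trans
    ((pow_succ' x i).symm.le.trans (pow_le_pow_right₀ h1 h))

theorem num_face {s g : ℕ} {y p lam : ℝ} (h1 : 7 * (s + 1 : ℝ) ≤ y) (hg : (g : ℝ) ≤ y) (hp : 1 ≤ p)
    (h2 : log p ≤ y) (l0 : 0 ≤ lam) (l1 : lam ≤ exp y) :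
    25 * (lam ^ (s + 1)) ^ 2 * p ^ g ≤ exp (y ^ (2 * s + 5)) * exp (-(4 * (y ^ (s + 2)) ^ 2)) ∧
    exp (-(4 * (y ^ (s + 2)) ^ 2)) + exp (4 * (y ^ s * y)) + exp (-(4 * (y ^ (s + 2)) ^ 2)) ≤
      exp (3 * (y ^ s * y)) ^ 2 ∧ (exp (3 * (y ^ s * y)) ^ (s + 1)) ^ 2 ≤ exp (y ^ (s + 2)) ∧
    exp y ^ 2 * (4 * exp (3 * (y ^ s * y)) ^ 2) ^ (s + 1) * exp (-(4 * (y ^ (s + 2)) ^ 2)) ≤
      exp (-(y ^ (s + 2)) ^ 2) ^ 2 := by
  have s0 : (0 : ℝ) ≤ s := Nat.cast_nonneg s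
  have y7 : 7 ≤ y := by linarith
  have y1 : 1 ≤ y := by linarith
  have a1 : y ≤ y ^ s * y := le_mul_of_one_le_left (by linarith) (one_le_pow₀ y1)
  have a2 : 7 * (s + 1) * (y ^ s * y) ≤ y ^ (s + 2) := by
    rw [← pow_succ]; exact pw_le y1 h1 (by omega)
  have a3 : (25 : ℝ) ≤ exp 4 := by
    have h4 := pow_le_pow_left₀ (by norm_num) (add_one_le_exp (1 / 2 : ℝ)) 8
    rw [← exp_nat_mul] at h4
    norm_num at h4 ⊢
    linarith
  have a4 : (4 : ℝ) ≤ exp (y ^ s * y) := by linarith [add_one_le_exp (y ^ s * y)]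
  have a5 : exp (-(4 * (y ^ (s + 2)) ^ 2)) ≤ 1 := exp_le_one_iff.2 (by
    have := sq_nonneg (y ^ (s + 2)); linarith)
  have a6 : y ^ 2 ≤ (y ^ (s + 2)) ^ 2 :=
    pow_le_pow_left₀ (by linarith) (le_self_pow₀ y1 (by omega)) 2
  have a7 : 7 * (y ^ (s + 2)) ^ 2 ≤ y ^ (2 * s + 5) := by
    rw [← pow_mul]; exact pw_le y1 y7 (by omega)
  refine ⟨?_, ?_, ?_, ?_⟩
  · rw [← exp_add, ← exp_log (pow_pos (one_pos.trans_le hp) g), log_pow]
    refine (mul_le_mul_of_nonneg_right (mul_le_mul a3 (pow_le_pow_left₀ (by positivity)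
      (pow_le_pow_left₀ l0 l1 _) 2) (by positivity) (exp_pos _).le) (exp_pos _).le).trans ?_
    rw [← exp_nat_mul, ← exp_nat_mul, ← exp_add, ← exp_add, exp_le_exp]
    push_cast
    nlinarith [mul_le_mul hg h2 (log_nonneg hp) (by linarith)]
  · rw [← exp_nat_mul, show ((2 : ℕ) : ℝ) * (3 * (y ^ s * y)) = 4 * (y ^ s * y) + (y ^ s * y +
      y ^ s * y) by push_cast; ring, exp_add, exp_add]
    have := one_le_exp (show 0 ≤ 4 * (y ^ s * y) by linarith)
    nlinarith [mul_le_mul a4 a4 (by norm_num) (exp_pos _).le]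
  · rw [← exp_nat_mul, ← exp_nat_mul, exp_le_exp]
    push_cast
    nlinarith
  · refine (mul_le_mul_of_nonneg_right (mul_le_mul_of_nonneg_left (pow_le_pow_left₀ (by positivity)
      (mul_le_mul_of_nonneg_right a4 (by positivity)) _) (by positivity)) (exp_pos _).le).trans ?_
    rw [← exp_nat_mul, ← exp_nat_mul, ← exp_add, ← exp_nat_mul, ← exp_add, ← exp_add,
      ← exp_nat_mul, exp_le_exp]
    push_cast
    have : 1 ≤ y ^ (s + 2) := one_le_pow₀ y1
    nlinarith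

theorem num_tail {y p L M σ : ℝ} {i j k g : ℕ} (h1 : 7 ≤ y) (h2 : y ≤ p) (hi : i < g) (hj : j < g)
    (hk : k < g) (hL : L ≤ p ^ i) (M0 : 0 ≤ M) (hM : M ≤ exp (p ^ i)) (hσ : exp (-y) ≤ σ)
    (g1 : 1 < g) :
    4 * exp (y ^ j) * exp (L - p ^ g) * M ≤ σ * exp (-p ^ k) := by
  have p1 : 1 ≤ p := by linarith
  have a1 := pw_le p1 (h1.trans h2) hi
  have a2 := pw_le p1 (h1.trans h2) hj
  have a3 := pw_le p1 (h1.trans h2) hk
  have a4 := pw_le p1 (h1.trans h2) g1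
  have a5 := pow_le_pow_left₀ (by linarith) h2 j
  have a6 : (4 : ℝ) ≤ exp 3 := by linarith [add_one_le_exp (3 : ℝ)]
  refine (mul_le_mul (mul_le_mul_of_nonneg_right (mul_le_mul_of_nonneg_right a6 (exp_pos _).le)
    (exp_pos _).le) hM M0 (by positivity)).trans
    (le_trans ?_ (mul_le_mul_of_nonneg_right hσ (exp_pos _).le))
  rw [← exp_add, ← exp_add, ← exp_add, ← exp_add, exp_le_exp]
  linarith [pow_one p]

theorem fin {s τ : ℕ} (hX : XLOC s) : FIN s τ := by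
  obtain ⟨cX, hX⟩ := hX
  obtain ⟨cM, hM⟩ := P057NA.mass s
  obtain ⟨c2, h2⟩ := P057F2.fin2 s τ (P057DE.dem s τ)
  obtain ⟨n, hn⟩ : ∃ n, n = (2 * s + 5) * cX := ⟨_, rfl⟩
  obtain ⟨u, hu⟩ : ∃ u, u = (n + 5) * cM := ⟨_, rfl⟩
  obtain ⟨v, hv⟩ : ∃ v, v = (s + 2) * c2 := ⟨_, rfl⟩
  obtain ⟨c, hc⟩ : ∃ c, c = n + u + v + cX + cM + c2 + 7 * s + 7 := ⟨_, rfl⟩
  refine ⟨c, fun N P T C W E J A _ _ _ _ _ _ _ cl m b d Z D φ w f θ B κ σ lam hL hT hC hZ hb hm hD
    hW hA hφ hw hK d0 dl hl hR hE hB hκ hσ hS => ?_⟩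
  have cc : ∀ (k : ℕ) e, k ≤ c → (k : ℝ) ≤ P e := fun k e h => (Nat.cast_le.2 h).trans (hL.big e)
  have p7 : ∀ e, 7 ≤ P e := fun e => by exact_mod_cast cc 7 e (by omega)
  have p1 : ∀ e, 1 ≤ P e := fun e => by linarith [p7 e]
  have pw : ∀ e {i j : ℕ}, i ≤ j → P e ^ i ≤ P e ^ j := fun e _ _ h => pow_le_pow_right₀ (p1 e) h
  have ps : ∀ e {j : ℕ}, j ≠ 0 → P e ≤ P e ^ j := fun e _ h => le_self_pow₀ (p1 e) h
  have p3 : ∀ e {i j : ℕ}, i < j → 3 * P e ^ i ≤ P e ^ j := fun e _ _ h =>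
    pw_le (p1 e) (by linarith [p7 e]) h
  have d1 : (1 : ℝ) ≤ d := Nat.one_le_cast.2 d0
  have dW : ∀ e, e ≤ m → (((d : ℤ) : ℝ) ^ e) ^ 2 ≤ ((d : ℝ) ^ m) ^ 2 := fun e he =>
    pow_le_pow_left₀ (by positivity) (pow_le_pow_right₀ d1 he) 2
  have W1 : (1 : ℝ) ≤ ((d : ℝ) ^ m) ^ 2 := one_le_pow₀ (one_le_pow₀ d1)
  have lW : ∀ e, e ≤ m → log (((d : ℝ) ^ m) ^ 2) / 2 ≤ P e ^ 2 := fun e he => by
    have a1 := mul_le_mul ((cc m m (by omega)).trans (lad_le hL he))
      (((log_le_iff_le_exp (by linarith)).2 (dl.trans hl)).trans (lad_le hL he)) (log_nonneg d1)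
      (by linarith [p1 e])
    rw [log_pow, log_pow]
    push_cast
    linarith
  generalize ((d : ℝ) ^ m) ^ 2 = L at dW W1 lW
  have y1 : P m ≤ P 1 := lad_le hL (by omega)
  have ex : ∀ {j : ℕ}, j ≠ 0 → exp (P m) ≤ exp (P m ^ j) := fun h => exp_le_exp.2 (ps m h)
  obtain ⟨T', Z', Ψ, ε, e, t1, z1, up1, -, sb1, st1, g1, f1, f2, f3, -⟩ := hX N
    (fun e => P e ^ (2 * s + 5)) T (low T m L d) (dla T m d) C W Unit cl m m Z _ B κ
    σ (P057SH.lad_pw hL (by omega) (by omega) (by omega)) hT (cx_mono hC fun e => ps e (by omega)) hZ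
    (by omega) le_rfl hm (ok_low hT (by omega) (by simpa using dW 1 (by omega))) (fun i => by
      by_cases h : i < m
      · rw [dm_low h, yy_low hT (by linarith) h]
        have a1 := mul_le_mul (hC i).1 (lW i h.le) (by linarith [log_nonneg W1]) (by linarith [p1 i])
        exact ⟨(hC i).1.trans (ps i (by omega)), by
          linarith [(hC i).2, p3 i (show 3 < 2 * s + 5 by omega), ps i (j := 3) (by omega), p1 i]⟩
      · have : IsEmpty {a // (low T m L d).lv a = i} :=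
          ⟨fun a => h (a.2 ▸ a.1.2)⟩
        rw [← card_lv, Tow.yy, det_isEmpty, Fintype.card_eq_zero, log_one, if_neg (by omega)]
        constructor <;> linarith [ps i (j := 2 * s + 5) (by omega), p1 i, Nat.cast_zero (R := ℝ)])
    (mor_low hT fun e he => dW e he.le) (by
      rw [Fintype.card_unit]
      linarith [p3 m (show 1 < 2 * s + 5 by omega), pow_one (P m), p1 m, Nat.cast_one (R := ℝ)])
    (hB.trans (ex (by omega))) ((exp_le_exp.2 (neg_le_neg (ps m (by omega)))).trans hκ)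
    ((exp_le_exp.2 (neg_le_neg ((lad_le hL (Nat.zero_le m)).trans (ps 0 (by omega))))).trans hσ) hS
  clear hX
  simp only [← pow_mul, ← hn] at g1 st1
  have gr : ∀ k, n + 3 ≤ k → T.Grow N T' fun e => P e ^ k := fun k hk i => by
    have a0 := dm_nonneg T i
    have a1 := pw (i + 1) (show n ≤ k - 1 by omega)
    have a2 := pw (i + 1) (show 2 ≤ k - 1 by omega)
    have a3 := p3 (i + 1) (show k - 1 < k by omega)
    have a4 : 0 ≤ P (i + 1) ^ n := by linarith [one_le_pow₀ (n := n) (p1 (i + 1))]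
    by_cases h : i < m
    · obtain ⟨b1, b2⟩ := g1 i h
      rw [dm_low h] at b1 b2
      rw [yy_low hT (by linarith) h] at b2
      have a5 := mul_le_mul_of_nonneg_left (lW (i + 1) h) a0
      have a6 := mul_le_mul_of_nonneg_left (show P (i + 1) ^ n + P (i + 1) ^ 2 ≤ P (i + 1) ^ k by
        linarith) (add_nonneg a0 zero_le_one)
      constructor <;> linarith [sq_nonneg (P (i + 1))]
    · rw [up_dm up1 (not_lt.1 h), up_yy up1 N (not_lt.1 h)]
      constructor <;> nlinarith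
  obtain ⟨m1, m2, -⟩ := hM N (fun e => P e ^ (n + 5)) T' C W Unit cl m
    (P057SH.lad_pw hL (by omega) (by omega) (by omega)) t1 (P057DW.cx_up hC up1 (gr _ le_rfl)
      (fun e => by linarith [one_le_pow₀ (n := n + 3) (p1 e)]) (fun e => ps e (by omega))
      fun e _ => by
        have a1 := pow_le_pow_left₀ (by linarith [p1 (e + 1)]) (hL.anti e) (n + 3)
        have a2 := mul_le_mul (show P e + 1 ≤ 2 * P e by linarith [p1 e]) a1
          (by linarith [one_le_pow₀ (n := n + 3) (p1 (e + 1))]) (by linarith [p1 e])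
        linarith [p3 e (show n + 4 < n + 5 by omega), ps e (j := n + 4) (by omega),
          pow_succ' (P e) (n + 3)]) (by
      rw [Fintype.card_unit]
      linarith [p3 1 (show 1 < n + 5 by omega), pow_one (P 1), p1 1, Nat.cast_one (R := ℝ)])
  simp only [← pow_mul, ← hu] at m1 m2
  obtain ⟨σm, hLm, hp⟩ := P057PU.pull s N T T' C W cl m Z Z' Ψ _ _ hT t1 sb1
  obtain ⟨γ, q1, q2⟩ := hp E J D (b + 1) τ (P m) hD
  obtain ⟨n1, n2, n3, n4⟩ := num_face (s := s) (g := c) (y := P m) (p := P 1)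
    (by exact_mod_cast cc (7 * (s + 1)) m (by omega)) (hL.big m) (p1 1)
    (((log_le_log (by linarith [p1 1]) (hL.anti 0)).trans hL.lg).trans (lad_le hL hm))
    (by linarith) hl
  have lo : Loc m d (exp (P m ^ (2 * s + 5))) Z' Ψ.top ε := ⟨fun a => (f1 a).1,
    fun a o => (f1 a).2.2 o, fun x => le_trans (mul_le_mul_of_nonneg_left (le_trans
      (le_mul_of_one_le_left (qq_nonneg (posDef_bk hT.pd _).posSemidef _) W1)
      (qq_smul_mat _ _ _).ge) (exp_pos _).le) (f2 x), f3⟩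
  choose K i1 i2 X₂ M Γ k1 k2 k3 using fun F : tops cl b => face lo (P057DE.mem_tops.1 F.2).2 hT t1
    z1 hLm hD.ok hD.sz hD.tf (φ := φ) (by rwa [(P057DE.mem_tops.1 F.2).1])
    (by rw [(P057DE.mem_tops.1 F.2).1]; omega) (hR F F.2) (d1.trans dl) (exp_pos _) n1 (exp_pos _).le
    (one_le_exp (by have := p1 m; positivity)) n2 n3 (exp_pos _).le n4
  have ct := P057DE.card_tops (cl := cl) (show b ≤ s by omega) (p1 m) hW
  obtain ⟨K', _, _, X', i, j1, j2, j3, j4⟩ := P057JO.join _ _ _ K _ X₂ τ (P m) (P m ^ s) k1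
    (by linarith [p1 m]) ct
  have o1 := ps m (j := s + 2) (by omega)
  have o2 : exp (-P m ^ (s + 2)) ≤ (1 - 1 / P 0 ^ (2 * s + 5)) * κ := by
    have a1 : 1 / P 0 ^ (2 * s + 5) ≤ 1 / 2 := one_div_le_one_div_of_le (by norm_num)
      (by linarith [ps 0 (j := 2 * s + 5) (by omega), p7 0])
    have a2 : exp (-P m ^ (s + 2)) * 2 ≤ exp (-P m) := by
      refine (mul_le_mul_of_nonneg_left (show 2 ≤ exp 1 by linarith [add_one_le_exp (1 : ℝ)])
        (exp_pos _).le).trans ?_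
      rw [← exp_add, exp_le_exp]
      linarith [p3 m (show 1 < s + 2 by omega), pow_one (P m), p1 m]
    nlinarith [(exp_pos _).trans_le hκ]
  have o3 := h2 N T' C W E J A K' cl m b Z' (D.pull Ψ σm γ) (fun a x => φ a (sg σm x)) w f θ B _ _
    (P m ^ (s + 2)) (P m ^ s * P m) (P 1 ^ c) X'
    (fun F => if h : F ∈ tops cl b then fun y => M ⟨F, h⟩ (y ∘ Sum.map id (i ⟨F, h⟩)) else 0)
    (fun F => if h : F ∈ tops cl b then fun a y => Γ ⟨F, h⟩ a (y ∘ Sum.map id (i ⟨F, h⟩)) else 0)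
    t1 z1 (by omega) ((cc c2 m (by omega)).trans o1) (hW.trans o1) (hA.trans o1)
    (by rw [← Fintype.card_coe]; exact ct.trans (pw m (by omega)))
    ⟨q1.ok, P057F2.sz_mono q1.sz o1, q1.tf, q1.cj.trans o1, q1.dg, q1.pd,
      fun j => (q1.gk j).trans (ex (by omega)), q1.wu, q1.wn, q1.wg, q1.u01,
      fun z k => (q1.ps z k).trans (ex (by omega))⟩
    (fun a => (hLm.dg E D.X _ _ (hφ a)).1) (fun a j => (hw a j).trans (ex (by omega)))
    (fun k hk x => hK k hk _) j1 j2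
    (by linarith [ps m (j := s + 1) (by omega), pow_succ (P m) s, p7 m])
    (by rw [← pow_succ]; exact pw_le (p1 m) (by linarith [p7 m]) (by omega))
    (fun k => by obtain ⟨F, j, rfl⟩ := j3 k; rw [(j4 F).1]; exact k2 F j)
    (fun F h => by
      simp only [dif_pos h]
      exact (k3 ⟨F, h⟩).ext (j4 _).1 (j4 _).2.1 (j4 _).2.2)
    (fun z => by rw [P057PL.ex0_sub sb1]; exact (hE _).trans (ex (by omega))) o2
    (mul_nonneg ((exp_pos _).trans_le hσ).le (exp_pos _).le)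
    (num_tail (k := n) (p7 m) y1 (by omega) (by omega) (by omega) m1 (ms_nonneg _ _)
      ((le_mul_of_one_le_left (ms_nonneg _ _) (one_le_pow₀ one_le_two)).trans m2) hσ (by omega))
    (by rw [funext (q2 f θ)]; exact st1)
  rw [← pow_mul, ← hv] at o3
  refine ⟨T', Z', _, _, _, t1, z1, up1, gr c (by omega), exp_le_exp.2 (pw m (by omega)),
    le_trans ?_ (mul_le_mul_of_nonneg_right o2 (exp_pos _).le), le_trans ?_
      (mul_le_mul_of_nonneg_right (mul_le_mul_of_nonneg_right hσ (exp_pos _).le) (exp_pos _).le),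
    P057SI.ks_mono o3 (pw m (by omega))⟩
  · rw [← exp_add, exp_le_exp]
    linarith [pw m (show s + 2 ≤ c - 1 by omega), pw m (show v ≤ c - 1 by omega),
      p3 m (show c - 1 < c by omega), one_le_pow₀ (n := v) (p1 m)]
  · rw [← exp_add, ← exp_add, exp_le_exp]
    linarith [ps 1 (j := c - 1) (by omega), pw 1 (show v ≤ c - 1 by omega),
      pw 1 (show n ≤ c - 1 by omega), p3 1 (show c - 1 < c by omega),
      pow_le_pow_left₀ (by linarith [p1 m]) y1 v]

end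

end Vale.Agent.P057FI
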