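import Vale.Agent.P057FI.Rnd

/-!
The two halves of the last step of a round.
-/

set_option linter.all false

open Matrix Finset
open Vale.Agent.P267.H775 Vale.Agent.P057G Vale.Agent.P057PC Vale.Agent.P057TP Vale.Agent.P057SY
open Vale.Agent.P057MA (IntV Fm fce)
open Vale.Agent.P057PL (k0)

namespace Vale.Agent.P057FI

noncomputable section

variable {C W E K A : Type} [Fintype W] [DecidableEq W] [Fintype E] [DecidableEq E] [Fintype K]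
  [DecidableEq K] {T : Tow} {cl : W → C} {m : ℕ}

/-- the contribution of one top face: the old extra coordinates are near the integer forms `M`,
the components of the forms are integers up to functions `Γ` of the faces of `W` -/
structure Fc (Z : Sys T W Unit) (X : Xt (Option W) (Lb T cl Unit m) E)
    (φ : A → (Lb T cl Unit m ⊕ E → ℝ) → ℝ) (F : Finset W) (r Q B η : ℝ)
    (X₂ : Xt (Option W) (Lb T cl Unit m) K) (M : (Lb T cl Unit m ⊕ K → ℝ) → E → ℝ)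
    (Γ : A → (Lb T cl Unit m ⊕ K → ℝ) → ℝ) : Prop where
  fm : ∀ e, X.fc e ⊆ F.image some → IntV (fun y => M y e) ∧
    Fm (xt (sk T cl m) X₂) (fce (xt (sk T cl m) X₂) (X.fc e)) (X.fc e) fun y => M y e
  wo : ∀ a y y', (∀ l, l.bs = none → y (Sum.inl l) = y' (Sum.inl l)) →
    (∀ k, y (Sum.inr k) = y' (Sum.inr k)) → Γ a y = Γ a y'
  pos : ∀ z w, qq (Gam T cl Unit m) (k0 (Z.ps cl m z)) ≤ r → Ps X₂ z w Q →
    qq X.G (fun e => if X.fc e ⊆ F.image some then M (jn z w) e -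
      (xt (sk T cl m) X).alt (X.fc e) (fun y => X.g y e) (Sum.elim (toR z) (M (jn z w)))
      else 0) ≤ B
  nr : ∀ z w, qq (Gam T cl Unit m) (Z.ps cl m z) ≤ r → Ps X₂ z w Q → ∀ a, ∃ n : ℤ,
    |cmp (xt (sk T cl m) X) (fp F) (φ a) (Sum.elim (toR z) (M (jn z w))) - n - Γ a (jn z w)| ≤ η

/-- finitely many systems of extra coordinates side by side -/
def JOIN : Prop :=
  ∀ (V ι I : Type) [DecidableEq V] [Fintype ι] [DecidableEq ι] [Fintype I] (K : I → Type)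
    [∀ i, Fintype (K i)] [∀ i, DecidableEq (K i)] (S : MS V ι) (X : ∀ i, Xt V ι (K i)) (τ : ℕ)
    (Y D : ℝ), (∀ i, (X i).Ok S ∧ (X i).Sz τ Y) → 0 ≤ Y → (Fintype.card I : ℝ) ≤ D →
    ∃ (K' : Type) (_ : Fintype K') (_ : DecidableEq K') (X' : Xt V ι K') (e : ∀ i, K i → K'),
      X'.Ok S ∧ X'.Sz τ (D * Y) ∧ (∀ k, ∃ i j, k = e i j) ∧ ∀ i, (∀ j, X'.fc (e i j) = (X i).fc j) ∧
        (∀ x j, X'.g x (e i j) = (X i).g (x ∘ Sum.map id (e i)) j) ∧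
        ∀ v, qq (X i).G (v ∘ e i) ≤ qq X'.G v

/-- demotion, continuity of the kernel, pigeonhole -/
def FIN2 (s τ : ℕ) : Prop :=
  ∃ c : ℕ, ∀ (N : ℝ) (T : Tow) (C W E J A K : Type) [Fintype W] [DecidableEq W] [Fintype E]
    [DecidableEq E] [Fintype J] [DecidableEq J] [Fintype A] [Fintype K] [DecidableEq K]
    (cl : W → C) (m b : ℕ) (Z : Sys T W Unit) (D : KD T cl m E J)
    (φ : A → (Lb T cl Unit m ⊕ E → ℝ) → ℝ) (w : A → J → ℤ) (f : ℤ → ℝ) (θ B κ σ Y Y' r : ℝ)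
    (X₂ : Xt (Option W) (Lb T cl Unit m) K) (M : Finset W → (Lb T cl Unit m ⊕ K → ℝ) → E → ℝ)
    (Γ : Finset W → A → (Lb T cl Unit m ⊕ K → ℝ) → ℝ), T.Ok s N → Z.Ok → b ≤ s → (c : ℝ) ≤ Y →
    (Fintype.card W : ℝ) ≤ Y → (Fintype.card A : ℝ) ≤ Y → ((tops cl b).card : ℝ) ≤ Y →
    D.Ok (b + 1) τ Y → (∀ a, Dg D.X (b + 1) (φ a)) → (∀ a j, |(w a j : ℝ)| ≤ Real.exp Y) →
    (∀ k ∈ D.K, ∀ x, toR k ⬝ᵥ D.Φ x = ∑ a, ((w a ⬝ᵥ k : ℤ) : ℝ) * φ a x) →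
    X₂.Ok (sk T cl m) → X₂.Sz τ Y' → 2 ≤ Y' → 4 * Y' ≤ Y → (∀ e, none ∉ X₂.fc e) →
    (∀ F ∈ tops cl b, Fc Z D.X φ F r (Real.exp (4 * Y')) (Real.exp Y) (Real.exp (-Y ^ 2)) X₂
      (M F) (Γ F)) → (∀ z, |Z.Ex0 cl m f θ z| ≤ Real.exp Y) → Real.exp (-Y) ≤ κ → 0 ≤ σ →
    4 * Real.exp Y * Real.exp (Fintype.card (Lb T cl Unit m) - r) *
      ms (Gam T cl Unit m) (fun _ => 0) ≤ σ → Z.St cl m (D.H Z f θ) B κ σ →
    KS Z cl m f θ b (2 * τ) (Y ^ c) (Real.exp Y) (κ * Real.exp (-Y ^ c)) (σ * Real.exp (-Y ^ c))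

end

end Vale.Agent.P057FI
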